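import Vale.Agent.P235.ST.H673.Piece
import Vale.Agent.P235.ST.H317.R12
import Vale.Agent.P235.ST.H119.Clock
import Vale.Agent.P235.ST.H188.RowsPlan
import Vale.Agent.P235.ST.H611.Cost
import Vale.Agent.P235.ST.H774.Cut

/-! P235, (ST) O(1): rows r13 and r14 from row r11 (helper673), over the landed rows. -/

namespace Vale.Agent.P235.STO.H673

open SimpleGraph

variable {V : Type} [Fintype V] (W : LWorld V)

/-- **r13** from r11 -/
theorem piece (hS : H317.Stretch W) {ρ w : V → ℝ} (hρ : W.Scale ρ)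
    (hw : W.Inv (W.nxt ρ) w) {p q : V}
    (g : W.G.Walk p q) (hg : g.IsPath) (hball : ∀ z ∈ g.support, W.d p z ≤ kap * ρ p / 4 + 1)
    (he : C1 * d1 * ρ p ≤ W.d p q) : W.d p q / 240 ≤ cost w g :=
  piece_of hρ hw (H188.nxt_scale W ρ) (fun z y h => H188.uns_le W hρ h)
    (fun x h => H188.nxt_attain W h) (fun x => H188.nxt_le W hρ x)
    (fun a b g => H611.vert W (H188.nxt_scale W ρ) hw g)
    (fun k m a b ha hb h hi => H119.D_T W k m ha hb h hi)
    (fun a b k m g hg hr ha hb => H317.stretches_of W hS hρ hw g hg hr ha hb) g hg hball he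

/-- r13 in the form of helper774 -/
theorem pieceP (hS : H317.Stretch W) : H774.Piece W :=
  fun _ _ hρ hw _ _ g hg hball he => piece W hS hρ hw g hg hball he

/-- **r14** from r11 -/
theorem inv_step (hS : H317.Stretch W) {ρ w v : V → ℝ} (hρ : W.Scale ρ)
    (hw : W.Inv (W.nxt ρ) w)
    (h1 : ∀ x y, W.G.Adj x y → |v x - v y| ≤ e1 * |w x - w y|)
    (h2 : ∀ x, |v x| ≤ e1 * ρ x) : W.Inv ρ (fun x => w x + v x) :=
  H774.inv_step_of W (pieceP W hS) (fun _ h x => H188.nxt_le W h x) hρ hw h1 h2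

end Vale.Agent.P235.STO.H673
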