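import Vale.Agent.P235.ST.H673.PieceW
import Vale.Agent.P235.ST.H24.Stretch
import Vale.Agent.P235.ST.H243.Bumps
import Vale.Agent.P235.ST.H183.PartB
import Vale.Agent.P235.ST.H548.Top

/-! P235, (ST) O(1): independent assembly (helper673). -/

namespace Vale.Agent.P235.STO.H673

open SimpleGraph

variable {V : Type} [Fintype V] (W : LWorld V)

theorem stretchS : H317.Stretch W := fun hρ hw _ _ _ _ _ g hg hr ha hb hne =>
  H24.stretch W hρ hw g hg hr ha hb hne

theorem pb : H548.PB := fun _ _ W => H183.partB W (fun h => H243.bumps W h)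
  (fun hρ hw h1 h2 => inv_step W (stretchS W) hρ hw h1 h2)

/-- **planar graphs embed into `L_1` with an absolute constant** -/
theorem planar : ∃ K : ℝ, ∀ (V : Type) [Finite V] (G : SimpleGraph V), G.Connected →
    (∃ σ : Equiv.Perm G.Dart, PlaneMap G σ) → DistortionLE G K :=
  H548.planar_of_core (K := 2 ^ 190) (by positivity) (H548.core1 pb)

end Vale.Agent.P235.STO.H673
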