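import Vale.Agent.P235.ST.H317.Defs2

/-! P235, (ST) O(1), row r13: the piece lemma (helper673). -/

namespace Vale.Agent.P235.STO.H673

open SimpleGraph

variable {V : Type}

/-! ### walks -/

/-- the first vertex of `S` on a walk -/
theorem first_in {G : SimpleGraph V} (S : Set V) {x y : V} (g : G.Walk x y)
    (h : ∃ z ∈ g.support, z ∈ S) :
    ∃ (c : V) (g1 : G.Walk x c) (g2 : G.Walk c y), g = g1.append g2 ∧ c ∈ S ∧
      ∀ z ∈ g1.support, z ≠ c → z ∉ S := by
  induction g with
  | @nil u =>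
    obtain ⟨z, hz, hS⟩ := h
    rw [Walk.support_nil, List.mem_singleton] at hz
    subst hz
    exact ⟨z, .nil, .nil, rfl, hS, fun z' hz' hne => absurd (by simpa using hz') hne⟩
  | @cons u v w a p ih =>
    by_cases hu : u ∈ S
    · exact ⟨u, .nil, .cons a p, rfl, hu, fun z' hz' hne => absurd (by simpa using hz') hne⟩
    · have h' : ∃ z ∈ p.support, z ∈ S := by
        obtain ⟨z, hz, hS⟩ := h
        rw [Walk.support_cons, List.mem_cons] at hz
        rcases hz with rfl | hz
        · exact absurd hS hu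
        · exact ⟨z, hz, hS⟩
      obtain ⟨c, g1, g2, e, hc, hn⟩ := ih h'
      refine ⟨c, .cons a g1, g2, by rw [e, Walk.cons_append], hc, fun z hz hne => ?_⟩
      rw [Walk.support_cons, List.mem_cons] at hz
      rcases hz with rfl | hz
      · exact hu
      · exact hn z hz hne

theorem cost_append {G : SimpleGraph V} (w : V → ℝ) {x y z : V} (p : G.Walk x y)
    (q : G.Walk y z) : cost w (p.append q) = cost w p + cost w q := by
  induction p with
  | nil => simp [cost]
  | cons a p ih =>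
    rw [Walk.cons_append]
    simp only [cost]
    rw [ih]
    ring

theorem cost_nonneg {G : SimpleGraph V} (w : V → ℝ) {x y : V} (p : G.Walk x y) :
    0 ≤ cost w p := by
  induction p with
  | nil => simp [cost]
  | cons a p ih =>
    simp only [cost]
    positivity

theorem cost_reverse {G : SimpleGraph V} (w : V → ℝ) {x y : V} (p : G.Walk x y) :
    cost w p.reverse = cost w p := by
  induction p with
  | nil => simp [cost]
  | @cons u v z a p ih =>
    rw [Walk.reverse_cons, cost_append, ih]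
    simp only [cost]
    rw [abs_sub_comm]
    ring

theorem cost_eq_length {W : LWorld V} {w : V → ℝ} {x y : V} (g : W.G.Walk x y)
    (h : ∀ z ∈ g.support, w z = W.u z) : cost w g = g.length := by
  induction g with
  | nil => simp [cost]
  | @cons u v z a p ih =>
    have h1 := h u (by simp)
    have h2 := h v (by simp)
    have h3 := W.unit u v a
    have h4 : |w u - w v| = 1 := by
      rw [h1, h2]
      exact_mod_cast h3
    simp only [cost]
    rw [ih (fun z hz => h z (by simp [hz])), h4, Walk.length_cons]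
    push_cast
    ring

/-! ### bands -/

theorem reach_of_walk (W : LWorld V) (k m : ℕ) {x y : V} (g : W.G.Walk x y)
    (h : ∀ z ∈ g.support, W.bi k m z = W.bi k m x) : (W.Bg k m).Reachable x y := by
  induction g with
  | nil => exact Reachable.refl _
  | @cons u v z a p ih =>
    have h1 : W.bi k m v = W.bi k m u := h v (by simp)
    have h2 : (W.Bg k m).Adj u v := ⟨a, h1.symm⟩
    refine h2.reachable.trans (ih fun z hz => ?_)
    rw [h z (by simp [hz]), h1]

theorem dist_le_Bg (W : LWorld V) (k m : ℕ) {x y : V} (h : (W.Bg k m).Reachable x y) :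
    W.G.dist x y ≤ (W.Bg k m).dist x y := by
  obtain ⟨g, hg⟩ := h.exists_walk_length_eq_dist
  rw [← hg]
  have hle : W.Bg k m ≤ W.G := fun a b hab => hab.1
  have := SimpleGraph.dist_le (g.mapLe hle)
  simpa using this

theorem mod_div {M x y t : ℤ} (hx : x = y + M * t) (h0 : 0 ≤ y) (h1 : y < M) :
    x % M = y ∧ x / M = t := by
  have hM : M ≠ 0 := by omega
  subst hx
  refine ⟨?_, ?_⟩
  · rw [Int.add_mul_emod_self_left]
    exact Int.emod_eq_of_lt h0 h1
  · rw [Int.add_mul_ediv_left _ _ hM, Int.ediv_eq_zero_of_lt h0 h1]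
    ring

/-- some offset puts all heights in `[A, A + 2^k]` in the middle of one band -/
theorem exists_offset (W : LWorld V) (k : ℕ) (A : ℤ) :
    ∃ m < 16, ∃ r t : ℤ, 0 ≤ r ∧ r < 2 ^ k ∧ ∀ z, A ≤ W.u z → W.u z ≤ A + 2 ^ k →
      W.pos k m z = 6 * 2 ^ k + r + (W.u z - A) ∧ W.bi k m z = t := by
  have hM : (0 : ℤ) < 2 ^ k := by positivity
  set M : ℤ := 2 ^ k with hMdef
  set Q : ℤ := A / M with hQ
  have hr0 : 0 ≤ A % M := Int.emod_nonneg _ hM.ne'
  have hr1 : A % M < M := Int.emod_lt_of_pos _ hM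
  have hA : A = M * Q + A % M := (Int.mul_ediv_add_emod A M).symm
  have hm0 : 0 ≤ (6 - Q) % 16 := Int.emod_nonneg _ (by norm_num)
  have hm1 : (6 - Q) % 16 < 16 := Int.emod_lt_of_pos _ (by norm_num)
  have hm2 : (6 - Q) = 16 * ((6 - Q) / 16) + (6 - Q) % 16 := (Int.mul_ediv_add_emod _ _).symm
  refine ⟨((6 - Q) % 16).toNat, by omega, A % M, -((6 - Q) / 16), hr0, hr1,
    fun z hz0 hz1 => ?_⟩
  have hcast : ((((6 - Q) % 16).toNat : ℕ) : ℤ) = (6 - Q) % 16 := Int.toNat_of_nonneg hm0
  have hx : W.u z + (((6 - Q) % 16).toNat : ℕ) * M =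
      (6 * M + A % M + (W.u z - A)) + 16 * M * (-((6 - Q) / 16)) := by
    rw [hcast]
    have e1 : (6 - Q) % 16 = 6 - Q - 16 * ((6 - Q) / 16) := by linarith
    rw [e1]
    have e2 : A % M = A - M * Q := by linarith
    rw [e2]
    ring
  have hth : th k = 16 * M := rfl
  exact mod_div hx (by linarith) (by rw [hth]; linarith)

/-! ### the piece lemma -/

section Piece

variable {W : LWorld V} {ρ w : V → ℝ} {p q : V}

/-- scale on the ball -/
theorem scale_ball (hρ : W.Scale ρ) {z : V} (hz : W.d p z ≤ kap * ρ p / 4 + 1) :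
    ρ z ≤ 5 / 4 * ρ p + 2 ^ 22 := by
  have h1 := hρ.lip z p
  have h2 : W.d z p = W.d p z := by
    unfold LWorld.d
    rw [SimpleGraph.dist_comm]
  rw [h2] at h1
  have h3 : W.d p z / kap ≤ ρ p / 4 + 2 ^ 22 := by
    unfold kap at hz ⊢
    rw [div_le_iff₀ (by positivity)]
    have : (ρ p / 4 + 2 ^ 22) * (1 / 2 ^ 22) = 1 / 2 ^ 22 * ρ p / 4 + 1 := by ring
    rw [this]
    exact hz
  have h4 := (abs_le.1 h1).2
  linarith

/-- case 0: small scale -/
theorem nxt_zero_ball [Fintype V] (hρ : W.Scale ρ)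
    (hnn : W.Scale (W.nxt ρ))
    (huns : ∀ z y, W.uns ρ z y → W.d z y ≤ 16 * d1 * ρ z)
    (hatt : ∀ x, 0 < W.nxt ρ x → ∃ z y, W.uns ρ z y ∧ W.nxt ρ x = W.d z y - W.d x z / kap)
    {x : V} (hx : ρ x ≤ 2 ^ 102) : W.nxt ρ x = 0 := by
  by_contra hne
  have hpos : 0 < W.nxt ρ x := lt_of_le_of_ne (hnn.nonneg x) (Ne.symm hne)
  obtain ⟨z, y, hu, he⟩ := hatt x hpos
  have h1 := huns z y hu
  have h2 : r0 ≤ W.d z y := hu.2.2.2.2.1
  have h3 := (abs_le.1 (hρ.lip z x)).2
  have h4 : W.d z x = W.d x z := by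
    unfold LWorld.d
    rw [SimpleGraph.dist_comm]
  rw [h4] at h3
  have h5 : ρ z ≤ 2 ^ 102 + 16 * d1 * ρ z := by linarith
  unfold d1 at h1 h5
  unfold r0 at h2
  norm_num at h1 h2 h5 ⊢
  linarith

/-- the cost of a walk is at least the range of the heights -/
theorem range_cost (hvert : ∀ (a b : V) (g : W.G.Walk a b),
      (31 / 32) * |(W.u b : ℝ) - W.u a| - 8 * e1 * ρ a ≤ cost w g)
    (g : W.G.Walk p q) {a b : V} (ha : a ∈ g.support) (hb : b ∈ g.support)
    {R : ℝ} (hR : ∀ z ∈ g.support, ρ z ≤ R) :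
    (31 / 32) * |(W.u b : ℝ) - W.u a| - 8 * e1 * R ≤ cost w g := by
  have he1 : 0 ≤ e1 := by unfold e1; positivity
  obtain ⟨c, g1, g2, hg, hc, -⟩ := first_in {a} g ⟨a, ha, rfl⟩
  obtain rfl : c = a := hc
  have hra := hR c ha
  have hrb := hR b hb
  have hb' := hb
  rw [hg, Walk.mem_support_append_iff] at hb
  rcases hb with hb | hb
  · obtain ⟨c', g3, g4, hg1, hc', -⟩ := first_in {b} g1 ⟨b, hb, rfl⟩
    obtain rfl : c' = b := hc'
    have h1 := hvert c' c g4
    have h2 : cost w g = cost w g3 + cost w g4 + cost w g2 := by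
      rw [hg, hg1, cost_append, cost_append]
    have h3 := cost_nonneg w g3
    have h4 := cost_nonneg w g2
    rw [abs_sub_comm] at h1
    nlinarith
  · obtain ⟨c', g3, g4, hg2, hc', -⟩ := first_in {b} g2 ⟨b, hb, rfl⟩
    obtain rfl : c' = b := hc'
    have h1 := hvert c c' g3
    have h2 : cost w g = cost w g1 + (cost w g3 + cost w g4) := by
      rw [hg, hg2, cost_append, cost_append]
    have h3 := cost_nonneg w g1
    have h4 := cost_nonneg w g4
    nlinarith

/-- the part between the first and the last lined vertex -/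
theorem ends (g : W.G.Walk p q) (hg : g.IsPath) {A B : ℤ}
    (hAB : ∀ z ∈ g.support, A ≤ W.u z ∧ W.u z ≤ B) (hlen : 2 * (B - A) < W.G.dist p q) :
    ∃ (a b : V) (h : W.G.Walk a b), h.IsPath ∧ a ∈ W.N ∧ b ∈ W.N ∧
      (∀ z ∈ h.support, z ∈ g.support) ∧ cost w h ≤ cost w g ∧
      (W.G.dist p q : ℤ) ≤ W.G.dist a b + 4 * (B - A) := by
  have hop2 : ∀ {x y : V} (h : W.G.Walk x y), h.IsPath → (∀ z ∈ h.support, z ∈ g.support) →
      (∀ z ∈ h.support, z ≠ x → z ≠ y → z ∉ W.N) → (h.length : ℤ) ≤ 2 * (B - A) := by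
    intro x y h hp hs hn
    obtain ⟨m, hm, he⟩ := W.hop x y h hp hn
    rw [← he]
    have h1 := hAB m (hs m hm)
    have h2 := hAB x (hs x h.start_mem_support)
    have h3 := hAB y (hs y h.end_mem_support)
    have h4 : |W.u m - W.u x| ≤ B - A := abs_le.2 ⟨by linarith, by linarith⟩
    have h5 : |W.u y - W.u m| ≤ B - A := abs_le.2 ⟨by linarith, by linarith⟩
    linarith
  by_cases hN : ∃ z ∈ g.support, z ∈ W.N
  · obtain ⟨c1, g1, g2, he, hc1, hn1⟩ := first_in W.N g hN
    obtain ⟨c2, h1, h2, he2, hc2, hn2⟩ := first_in W.N g2.reverse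
      ⟨c1, by rw [Walk.support_reverse, List.mem_reverse]; exact g2.start_mem_support, hc1⟩
    have hs1 : ∀ z ∈ g1.support, z ∈ g.support := fun z hz => by
      rw [he, Walk.mem_support_append_iff]
      exact Or.inl hz
    have hs2 : ∀ z ∈ g2.support, z ∈ g.support := fun z hz => by
      rw [he, Walk.mem_support_append_iff]
      exact Or.inr hz
    have hs3 : ∀ z ∈ h1.support, z ∈ g2.support := fun z hz => by
      have : z ∈ g2.reverse.support := by
        rw [he2, Walk.mem_support_append_iff]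
        exact Or.inl hz
      rwa [Walk.support_reverse, List.mem_reverse] at this
    have hs4 : ∀ z ∈ h2.support, z ∈ g2.support := fun z hz => by
      have : z ∈ g2.reverse.support := by
        rw [he2, Walk.mem_support_append_iff]
        exact Or.inr hz
      rwa [Walk.support_reverse, List.mem_reverse] at this
    have hp := hg
    rw [he] at hp
    have hp1 : g1.IsPath := hp.of_append_left
    have hp2 : g2.reverse.IsPath := hp.of_append_right.reverse
    rw [he2] at hp2
    have hp3 : h1.IsPath := hp2.of_append_left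
    have hp4 : h2.IsPath := hp2.of_append_right
    have l1 := hop2 g1 hp1 hs1 fun z hz _ hne => hn1 z hz hne
    have l2 := hop2 h1 hp3 (fun z hz => hs2 z (hs3 z hz)) fun z hz _ hne => hn2 z hz hne
    refine ⟨c1, c2, h2.reverse, hp4.reverse, hc1, hc2, fun z hz => ?_, ?_, ?_⟩
    · rw [Walk.support_reverse, List.mem_reverse] at hz
      exact hs2 z (hs4 z hz)
    · have e1 : cost w g = cost w g1 + cost w g2 := by rw [he, cost_append]
      have e2 : cost w g2 = cost w h1 + cost w h2 := by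
        rw [← cost_reverse, he2, cost_append]
      have := cost_nonneg w g1
      have := cost_nonneg w h1
      rw [cost_reverse]
      linarith
    · have d1 := SimpleGraph.dist_le g1
      have d2 := SimpleGraph.dist_le h1
      have t1 : W.G.dist p q ≤ W.G.dist p c1 + W.G.dist c1 q := W.conn.dist_triangle
      have t2 : W.G.dist c1 q ≤ W.G.dist c1 c2 + W.G.dist c2 q := W.conn.dist_triangle
      rw [SimpleGraph.dist_comm (u := c2) (v := q)] at t2
      omega
  · exfalso
    push Not at hN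
    have h1 := hop2 g hg (fun z hz => hz) fun z hz _ _ => hN z hz
    have h2 := SimpleGraph.dist_le g
    omega

theorem d_comm (W : LWorld V) (x y : V) : W.d x y = W.d y x := by
  unfold LWorld.d
  rw [SimpleGraph.dist_comm]

/-- case 2: a flat piece -/
theorem flat (hρp : 2 ^ 100 ≤ ρ p)
    (hDT : ∀ (k m : ℕ) (a b : V), a ∈ W.N → b ∈ W.N → (W.Bg k m).Reachable a b →
      W.idx a ≤ W.idx b → (W.D k m a : ℤ) + (W.Bg k m).dist a b ≤ W.D k m b + 2 * th k)
    (hstr : ∀ (a b : V) (k m : ℕ) (g : W.G.Walk a b), g.IsPath → W.Reg ρ p k m g →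
      a ∈ W.N → b ∈ W.N →
      (W.D k m b : ℝ) ≤ W.D k m a + (5 / 4) * cost w g + 64 * d1 * ρ p)
    (g : W.G.Walk p q) (hg : g.IsPath) (hball : ∀ z ∈ g.support, W.d p z ≤ kap * ρ p / 4 + 1)
    (he : C1 * d1 * ρ p ≤ W.d p q) {A B : ℤ}
    (hAB : ∀ z ∈ g.support, A ≤ W.u z ∧ W.u z ≤ B)
    (hV : 200 * ((B : ℝ) - A) ≤ W.d p q) : W.d p q / 240 ≤ cost w g := by
  have hA0 : A ≤ B := (hAB p g.start_mem_support).1.trans (hAB p g.start_mem_support).2
  have hA0' : (0 : ℝ) ≤ (B : ℝ) - A := by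
    have : (A : ℝ) ≤ B := by exact_mod_cast hA0
    linarith
  have hd1 : d1 = 1 / 2 ^ 100 := rfl
  have hC1 : C1 = 2 ^ 11 := rfl
  -- e = d p q is at least 2 ^ 11
  have he0 : 2 ^ 11 * (d1 * ρ p) ≤ W.d p q := by
    rw [hC1] at he
    linarith
  have hx1 : 1 ≤ d1 * ρ p := by
    rw [hd1, one_div, inv_mul_eq_div, le_div_iff₀ (by positivity)]
    linarith
  set X : ℝ := d1 * ρ p with hX
  have hX2 : ρ p = 2 ^ 100 * X := by
    rw [hX, hd1]
    ring
  have hepos : 0 < W.d p q := by linarith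
  have hq := hball q g.end_mem_support
  -- the thickness
  have hex : ∃ k : ℕ, 16 * (B - A) ≤ th k ∧ 64 * X ≤ (th k : ℝ) := by
    obtain ⟨k, hk⟩ := pow_unbounded_of_one_lt (max (16 * ((B : ℝ) - A)) (64 * X))
      (by norm_num : (1 : ℝ) < 2)
    refine ⟨k, ?_, ?_⟩
    · have h1 : 16 * ((B : ℝ) - A) < 2 ^ k := lt_of_le_of_lt (le_max_left _ _) hk
      have h2 : (16 * (B - A) : ℤ) ≤ 2 ^ k := by exact_mod_cast h1.le
      unfold th
      have : (0 : ℤ) < 2 ^ k := by positivity
      linarith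
    · have h1 : 64 * X < 2 ^ k := lt_of_le_of_lt (le_max_right _ _) hk
      unfold th
      push_cast
      have : (0 : ℝ) < 2 ^ k := by positivity
      linarith
  classical
  obtain ⟨k, ⟨hk1, hk2⟩, hkmin⟩ : ∃ k : ℕ, (16 * (B - A) ≤ th k ∧ 64 * X ≤ (th k : ℝ)) ∧
      ∀ j < k, ¬ (16 * (B - A) ≤ th j ∧ 64 * X ≤ (th j : ℝ)) :=
    ⟨Nat.find hex, Nat.find_spec hex, fun j hj => Nat.find_min hex hj⟩
  have hk0 : k ≠ 0 := by
    rintro rfl
    unfold th at hk2
    norm_num at hk2
    linarith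
  obtain ⟨j, rfl⟩ : ∃ j, k = j + 1 := ⟨k - 1, by omega⟩
  have hth : (th (j + 1) : ℝ) = 2 * (th j : ℝ) := by
    unfold th
    push_cast
    ring
  have hthe : (th (j + 1) : ℝ) ≤ 4 / 25 * W.d p q := by
    have h1 := hkmin j (Nat.lt_succ_self j)
    rw [not_and_or, not_le, not_le] at h1
    rcases h1 with h1 | h1
    · have h2 : (th j : ℝ) < 16 * ((B : ℝ) - A) := by exact_mod_cast h1
      rw [hth]
      linarith
    · rw [hth]
      linarith
  set k := j + 1 with hkdef
  have hthk : (th k : ℝ) = 16 * 2 ^ k := by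
    unfold th
    push_cast
    ring
  have hVk : B - A ≤ 2 ^ k := by
    unfold th at hk1
    linarith
  obtain ⟨m, hm, r, t, hr0, hr1, hz⟩ := exists_offset W k A
  have hband : ∀ z ∈ g.support, 6 * 2 ^ k ≤ W.pos k m z ∧ W.pos k m z ≤ 9 * 2 ^ k ∧
      W.bi k m z = t := fun z hzs => by
    obtain ⟨h1, h2⟩ := hAB z hzs
    obtain ⟨h3, h4⟩ := hz z h1 (by linarith)
    refine ⟨?_, ?_, h4⟩
    · rw [h3]
      linarith
    · rw [h3]
      linarith
  have hlen : 2 * (B - A) < W.G.dist p q := by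
    have h1 : 2 * ((B : ℝ) - A) < W.d p q := by linarith
    have h2 : 2 * ((B : ℝ) - A) < (W.G.dist p q : ℝ) := h1
    exact_mod_cast h2
  obtain ⟨a, b, h, hp, ha, hb, hs, hcost, hdist⟩ := ends g hg hAB hlen
  have hdist' : W.d p q ≤ W.d a b + 4 * ((B : ℝ) - A) := by
    unfold LWorld.d
    exact_mod_cast hdist
  have hkey : ∀ (a b : V) (h : W.G.Walk a b), h.IsPath → a ∈ W.N → b ∈ W.N →
      (∀ z ∈ h.support, z ∈ g.support) → W.idx a ≤ W.idx b →
      W.d a b - 2 * th k ≤ (5 / 4) * cost w h + 64 * d1 * ρ p := by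
    intro a b h hp ha hb hs hi
    have hreg : W.Reg ρ p k m h := by
      refine ⟨hm, hρp, ?_, ?_, fun z hz => hball z (hs z hz), fun z hz => ?_, fun z hz => ?_⟩
      · have : 64 * d1 * ρ p = 64 * X := by rw [hX]; ring
        rw [this]
        exact hk2
      · have h1 : W.d p q ≤ kap * ρ p / 4 + 1 := hq
        have h2 : dl = kap / 8 := by
          unfold dl kap
          norm_num
        have h3 : 2 ^ 78 ≤ kap * ρ p := by
          rw [hX2]
          unfold kap
          have : (1 : ℝ) / 2 ^ 22 * (2 ^ 100 * X) = 2 ^ 78 * X := by ring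
          rw [this]
          have : (0 : ℝ) < 2 ^ 78 := by positivity
          nlinarith
        rw [h2]
        norm_num at h3
        linarith
      · exact ⟨(hband z (hs z hz)).1, (hband z (hs z hz)).2.1⟩
      · rw [(hband z (hs z hz)).2.2, (hband a (hs a h.start_mem_support)).2.2]
    have hreach : (W.Bg k m).Reachable a b := reach_of_walk W k m h hreg.same
    have h1 := hDT k m a b ha hb hreach hi
    have h2 := hstr a b k m h hp hreg ha hb
    have h3 : W.d a b ≤ ((W.Bg k m).dist a b : ℝ) := by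
      unfold LWorld.d
      exact_mod_cast dist_le_Bg W k m hreach
    have h4 : (W.D k m a : ℝ) + (W.Bg k m).dist a b ≤ W.D k m b + 2 * th k := by
      exact_mod_cast h1
    linarith
  have hfin : W.d a b - 2 * th k ≤ (5 / 4) * cost w h + 64 * d1 * ρ p := by
    rcases le_total (W.idx a) (W.idx b) with hi | hi
    · exact hkey a b h hp ha hb hs hi
    · have h1 := hkey b a h.reverse hp.reverse hb ha (fun z hz => hs z (by
        rwa [Walk.support_reverse, List.mem_reverse] at hz)) hi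
      rw [cost_reverse, d_comm W b a] at h1
      exact h1
  have h5 : 64 * d1 * ρ p = 64 * X := by rw [hX]; ring
  rw [h5] at hfin
  linarith

/-- **r13**, from the other rows -/
theorem piece_of [Fintype V] (hρ : W.Scale ρ) (hw : W.Inv (W.nxt ρ) w)
    (hnn : W.Scale (W.nxt ρ))
    (huns : ∀ z y, W.uns ρ z y → W.d z y ≤ 16 * d1 * ρ z)
    (hatt : ∀ x, 0 < W.nxt ρ x → ∃ z y, W.uns ρ z y ∧ W.nxt ρ x = W.d z y - W.d x z / kap)
    (hnle : ∀ x, W.nxt ρ x ≤ 16 * d1 * ρ x)
    (hvert : ∀ (a b : V) (g : W.G.Walk a b),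
      (31 / 32) * |(W.u b : ℝ) - W.u a| - 8 * e1 * W.nxt ρ a ≤ cost w g)
    (hDT : ∀ (k m : ℕ) (a b : V), a ∈ W.N → b ∈ W.N → (W.Bg k m).Reachable a b →
      W.idx a ≤ W.idx b → (W.D k m a : ℤ) + (W.Bg k m).dist a b ≤ W.D k m b + 2 * th k)
    (hstr : ∀ (a b : V) (k m : ℕ) (g : W.G.Walk a b), g.IsPath → W.Reg ρ p k m g →
      a ∈ W.N → b ∈ W.N →
      (W.D k m b : ℝ) ≤ W.D k m a + (5 / 4) * cost w g + 64 * d1 * ρ p)
    (g : W.G.Walk p q) (hg : g.IsPath) (hball : ∀ z ∈ g.support, W.d p z ≤ kap * ρ p / 4 + 1)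
    (he : C1 * d1 * ρ p ≤ W.d p q) : W.d p q / 240 ≤ cost w g := by
  classical
  rcases le_total (ρ p) (2 ^ 100) with hsmall | hbig
  · -- case 0
    have hz : ∀ z ∈ g.support, w z = W.u z := fun z hz => by
      have h1 := scale_ball hρ (hball z hz)
      have h2 : W.nxt ρ z = 0 := nxt_zero_ball hρ hnn huns hatt (by
        norm_num at h1 hsmall ⊢
        linarith)
      have h3 := hw.close z
      rw [h2, mul_zero] at h3
      have := abs_nonpos_iff.1 h3
      linarith
    rw [cost_eq_length g hz]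
    have h1 := SimpleGraph.dist_le g
    have h2 : W.d p q ≤ (g.length : ℝ) := by
      unfold LWorld.d
      exact_mod_cast h1
    have h3 : 0 ≤ W.d p q := by
      unfold LWorld.d
      positivity
    linarith
  · obtain ⟨a, ha, hamin⟩ := Finset.exists_min_image g.support.toFinset W.u
      ⟨p, List.mem_toFinset.2 g.start_mem_support⟩
    obtain ⟨b, hb, hbmax⟩ := Finset.exists_max_image g.support.toFinset W.u
      ⟨p, List.mem_toFinset.2 g.start_mem_support⟩
    rw [List.mem_toFinset] at ha hb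
    have hAB : ∀ z ∈ g.support, W.u a ≤ W.u z ∧ W.u z ≤ W.u b := fun z hz =>
      ⟨hamin z (List.mem_toFinset.2 hz), hbmax z (List.mem_toFinset.2 hz)⟩
    rcases le_total (200 * ((W.u b : ℝ) - W.u a)) (W.d p q) with hV | hV
    · exact flat hbig hDT hstr g hg hball he hAB hV
    · -- case 1
      have h1 := range_cost (ρ := W.nxt ρ) (R := 16 * d1 * (5 / 4 * ρ p + 2 ^ 22)) hvert g ha hb
        fun z hz => by
          have h2 := scale_ball hρ (hball z hz)
          have h3 := hnle z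
          have h4 : (0 : ℝ) ≤ 16 * d1 := by unfold d1; positivity
          exact h3.trans (mul_le_mul_of_nonneg_left h2 h4)
      have h2 : (W.u b : ℝ) - W.u a ≤ |(W.u b : ℝ) - W.u a| := le_abs_self _
      have hd1 : d1 = 1 / 2 ^ 100 := rfl
      have hX2 : ρ p = 2 ^ 100 * (d1 * ρ p) := by
        rw [hd1]
        ring
      have hx1 : 1 ≤ d1 * ρ p := by
        rw [hd1, one_div, inv_mul_eq_div, le_div_iff₀ (by positivity)]
        linarith
      have he0 : 2 ^ 11 * (d1 * ρ p) ≤ W.d p q := by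
        have hC1 : C1 = 2 ^ 11 := rfl
        rw [hC1] at he
        linarith
      have h5 : 8 * e1 * (16 * d1 * (5 / 4 * ρ p + 2 ^ 22)) ≤ 1 / 2 ^ 100 * (d1 * ρ p) := by
        have h6 : 8 * e1 * (16 * d1 * (5 / 4 * ρ p + 2 ^ 22)) =
            8 * e1 * 20 * (d1 * ρ p) + 8 * e1 * (16 * d1 * 2 ^ 22) := by ring
        rw [h6]
        have h7 : 8 * e1 * 20 ≤ 1 / 2 ^ 101 := by
          unfold e1
          norm_num
        have h8 : 8 * e1 * (16 * d1 * 2 ^ 22) ≤ 1 / 2 ^ 101 := by
          unfold e1 d1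
          norm_num
        nlinarith
      norm_num at h5 he0 ⊢
      linarith

end Piece

end Vale.Agent.P235.STO.H673
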